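import Vale.Agent.P052.Geometry
import Vale.Agent.P052.Assemble

theorem Vale.Agent.Results.P052.Dim63.result :
    ∀ d : ℕ, 63 ≤ d →
      ∃ Y : Set (EuclideanSpace ℝ (Fin d)), Y.Finite ∧ 0 < Metric.diam Y ∧
        ¬ ∃ P : Fin (d + 1) → Set (EuclideanSpace ℝ (Fin d)),
          (⋃ i, P i) = Y ∧ ∀ i, Metric.diam (P i) < Metric.diam Y := by
  intro d hd
  exact Vale.Agent.P052.borsuk_of_data Vale.Agent.P052.vec Vale.Agent.P052.adj
    Vale.Agent.P052.vec_self Vale.Agent.P052.vec_off Vale.Agent.P052.clique_le d hd
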