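import Vale.Agent.P052.Geometry
import Vale.Agent.P052.Assemble

namespace Vale.Agent.P052W

/-- Borsuk's conjecture in dimension `d`: every bounded subset of `R^d` of positive diameter is
the union of `d + 1` subsets of strictly smaller diameter. -/
def BorsukHolds (d : ℕ) : Prop :=
  ∀ Y : Set (EuclideanSpace ℝ (Fin d)), Bornology.IsBounded Y → 0 < Metric.diam Y →
    ∃ P : Fin (d + 1) → Set (EuclideanSpace ℝ (Fin d)),
      (⋃ i, P i) = Y ∧ ∀ i, Metric.diam (P i) < Metric.diam Y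

end Vale.Agent.P052W

open Vale.Agent.P052W in
/-- Borsuk's conjecture fails in every dimension `d ≥ 63` (some finite set needs at least `d + 2`
pieces), and the least dimension in which it fails is at most `63`. -/
theorem Vale.Agent.Results.P052.FailsFrom63.result :
    (∀ d : ℕ, 63 ≤ d → ¬ BorsukHolds d ∧
      ∃ Y : Set (EuclideanSpace ℝ (Fin d)), Y.Finite ∧ 0 < Metric.diam Y ∧
        ∀ (k : ℕ) (P : Fin k → Set (EuclideanSpace ℝ (Fin d))), (⋃ i, P i) = Y →
          (∀ i, Metric.diam (P i) < Metric.diam Y) → d + 2 ≤ k) ∧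
    sInf {d : ℕ | 1 ≤ d ∧ ¬ BorsukHolds d} ≤ 63 := by
  have main : ∀ d : ℕ, 63 ≤ d →
      ∃ Y : Set (EuclideanSpace ℝ (Fin d)), Y.Finite ∧ 0 < Metric.diam Y ∧
        ¬ ∃ P : Fin (d + 1) → Set (EuclideanSpace ℝ (Fin d)),
          (⋃ i, P i) = Y ∧ ∀ i, Metric.diam (P i) < Metric.diam Y := fun d hd =>
    Vale.Agent.P052.borsuk_of_data Vale.Agent.P052.vec Vale.Agent.P052.adj
      Vale.Agent.P052.vec_self Vale.Agent.P052.vec_off Vale.Agent.P052.clique_le d hd
  have fail : ∀ d : ℕ, 63 ≤ d → ¬ BorsukHolds d := by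
    intro d hd h
    obtain ⟨Y, hY, h0, hn⟩ := main d hd
    exact hn (h Y hY.isBounded h0)
  refine ⟨fun d hd => ⟨fail d hd, ?_⟩, Nat.sInf_le ⟨by norm_num, fail 63 le_rfl⟩⟩
  obtain ⟨Y, hY, h0, hn⟩ := main d hd
  refine ⟨Y, hY, h0, fun k P hP hd' => ?_⟩
  by_contra hk
  refine hn ⟨fun i => if h : i.1 < k then P ⟨i.1, h⟩ else ∅, ?_, ?_⟩
  · rw [← hP]
    ext x
    simp only [Set.mem_iUnion]
    constructor
    · rintro ⟨i, hi⟩
      by_cases h : i.1 < k
      · rw [dif_pos h] at hi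
        exact ⟨_, hi⟩
      · rw [dif_neg h] at hi
        exact hi.elim
    · rintro ⟨i, hi⟩
      refine ⟨⟨i.1, by omega⟩, ?_⟩
      rw [dif_pos i.2]
      exact hi
  · intro i
    by_cases h : i.1 < k
    · simp only [dif_pos h]
      exact hd' _
    · simp only [dif_neg h, Metric.diam_empty]
      exact h0
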